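import Crest.Agent.N250.Gc.Alg

/-!
# Row 250 (helper82): the polynomials of `Gc/Alg` in a chart (pure algebra, any ring)

`u`, `v` are tangent vectors of the base, `σ = ⟨n, u × v⟩`, `cb u J`, `cb v J` the tangent vectors of
the image.
-/

set_option autoImplicit false

namespace Crest.Agent.N250.Cj

open Gc

variable {R : Type} [CommRing R]

/-- `∑ u_a J_a` -/
def cb (u : Fin 3 → R) (J : Fin 3 → Fin 3 → R) (c : Fin 3) : R := ∑ a, u a * J a c

/-- `∑ u_a v_b T_ab` -/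
def bl (T : Fin 3 → Fin 3 → R) (u v : Fin 3 → R) : R := ∑ a, ∑ b, u a * v b * T a b

/-- `∑ u_a v_b K_ab` -/
def cb2 (K : Fin 3 → Fin 3 → Fin 3 → R) (u v : Fin 3 → R) (c : Fin 3) : R :=
  ∑ a, ∑ b, u a * v b * K a b c

/-- mean curvature of a parametrisation times `|X₁ × X₂|³` -/
def Hc (X1 X2 X11 X12 X21 X22 : Fin 3 → R) : R :=
  -(dot X2 X2 * dot X11 (cr X1 X2) - dot X1 X2 * (dot X12 (cr X1 X2) + dot X21 (cr X1 X2)) +
    dot X1 X1 * dot X22 (cr X1 X2))

/-- `(2 H - ⟨X, n⟩) |X₁ × X₂|³` -/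
def ELc (X X1 X2 X11 X12 X21 X22 : Fin 3 → R) : R :=
  2 * Hc X1 X2 X11 X12 X21 X22 - dot X (cr X1 X2) * dot (cr X1 X2) (cr X1 X2)

theorem cr_cr (u v : Fin 3 → R) : dot (cr u v) (cr u v) = dot u u * dot v v - dot u v ^ 2 := by
  simp only [dot, cr, Fin.sum_univ_three, f01, f02, f11, f12, f21, f22]; ring

theorem dot_cr_left (u v : Fin 3 → R) : dot u (cr u v) = 0 := by
  simp only [dot, cr, Fin.sum_univ_three, f01, f02, f11, f12, f21, f22]; ring

theorem dot_cr_right (u v : Fin 3 → R) : dot v (cr u v) = 0 := by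
  simp only [dot, cr, Fin.sum_univ_three, f01, f02, f11, f12, f21, f22]; ring

theorem dot_cb (u v : Fin 3 → R) (J : Fin 3 → Fin 3 → R) :
    dot (cb u J) (cb v J) = bl (gm J) u v := by
  simp only [dot, cb, bl, gm, Fin.sum_univ_three]; ring

theorem dot_cb2 (K : Fin 3 → Fin 3 → Fin 3 → R) (u v w : Fin 3 → R) :
    dot (cb2 K u v) w = bl (fun a b => dot (K a b) w) u v := by
  simp only [dot, cb2, bl, Fin.sum_univ_three]; ring

theorem dot_cb_left (u w : Fin 3 → R) (J : Fin 3 → Fin 3 → R) :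
    dot (cb u J) w = ∑ a, u a * dot (J a) w := by
  simp only [dot, cb, Fin.sum_univ_three]; ring

theorem cr_cb (u v : Fin 3 → R) (J : Fin 3 → Fin 3 → R) (c : Fin 3) :
    cr (cb u J) (cb v J) c = ∑ e, cr u v e * cof J e c := by
  simp only [cof, cb, cr, Fin.sum_univ_three, f01, f02, f11, f12, f21, f22]; ring

/-- `n` is a unit normal of the plane of `u`, `v` -/
structure Tp (n u v : Fin 3 → R) : Prop where
  nn : ∑ a, n a * n a = 1
  nu : dot n u = 0
  nv : dot n v = 0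

/-- the signed area of `u`, `v` -/
def sig (n u v : Fin 3 → R) : R := dot n (cr u v)

namespace Tp

variable {n u v : Fin 3 → R} (h : Tp n u v)
include h

theorem cr_eq (c : Fin 3) : cr u v c = sig n u v * n c := by
  have h1 := h.nn
  have h2 := h.nu
  have h3 := h.nv
  simp only [dot, Fin.sum_univ_three] at h1 h2 h3
  induction c using fin3 <;>
    simp only [sig, dot, cr, Fin.sum_univ_three, f01, f02, f11, f12, f21, f22]
  · linear_combination (-(u 1 * v 2 - u 2 * v 1)) * h1 + (n 1 * v 2 - n 2 * v 1) * h2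
      - (n 1 * u 2 - n 2 * u 1) * h3
  · linear_combination (-(u 2 * v 0 - u 0 * v 2)) * h1 + (n 2 * v 0 - n 0 * v 2) * h2
      - (n 2 * u 0 - n 0 * u 2) * h3
  · linear_combination (-(u 0 * v 1 - u 1 * v 0)) * h1 + (n 0 * v 1 - n 1 * v 0) * h2
      - (n 0 * u 1 - n 1 * u 0) * h3

theorem sig_sq : sig n u v ^ 2 = dot u u * dot v v - dot u v ^ 2 := by
  rw [← cr_cr]
  have := h.nn
  simp only [dot, h.cr_eq, Fin.sum_univ_three] at this ⊢
  linear_combination (-sig n u v ^ 2) * this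

/-- the trace of `T` with respect to `g` -/
theorem mixed {g T : Fin 3 → Fin 3 → R} (hs : ∀ a b, g a b = g b a)
    (hg : ∀ b, ∑ a, n a * g a b = 0) (hT : ∀ b, ∑ a, n a * T a b = 0) :
    sig n u v ^ 2 * ∑ a, ∑ b, ((if a = b then ∑ e, g e e else 0) - g a b) * T a b =
      bl g v v * bl T u u - bl g u v * (bl T u v + bl T v u) + bl g u u * bl T v v := by
  have e : bl g v v * bl T u u - bl g u v * (bl T u v + bl T v u) + bl g u u * bl T v v =
      ∑ a, ∑ b, cr u v a * cr u v b * (g (a + 1) (b + 1) * T (a + 2) (b + 2)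
        - g (a + 1) (b + 2) * T (a + 2) (b + 1) - g (a + 2) (b + 1) * T (a + 1) (b + 2)
        + g (a + 2) (b + 2) * T (a + 1) (b + 1)) := by
    simp only [bl, cr, Fin.sum_univ_three, f01, f02, f11, f12, f21, f22, hs 1 0, hs 2 0, hs 2 1]
    ring
  rw [e]
  have h1 := h.nn
  have g0 := hg 0
  have g1 := hg 1
  have g2 := hg 2
  have t0 := hT 0
  have t1 := hT 1
  have t2 := hT 2
  simp only [h.cr_eq]
  generalize sig n u v = s
  simp only [Fin.sum_univ_three, f01, f02, f11, f12, f21, f22, hs 1 0, hs 2 0, hs 2 1, if_true,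
    Fin.reduceEq, if_false] at h1 g0 g1 g2 t0 t1 t2 ⊢
  linear_combination (exp := 1) s ^ 2 * (-((g 0 0 + g 1 1 + g 2 2) * (T 0 0 + T 1 1 + T 2 2)
      - (g 0 0 * T 0 0 + g 0 1 * T 0 1 + g 0 2 * T 0 2 + g 0 1 * T 1 0 + g 1 1 * T 1 1
        + g 1 2 * T 1 2 + g 0 2 * T 2 0 + g 1 2 * T 2 1 + g 2 2 * T 2 2)) * h1
    + (T 0 0 + T 1 1 + T 2 2) * (n 0 * g0 + n 1 * g1 + n 2 * g2)
    + (g 0 0 + g 1 1 + g 2 2) * (n 0 * t0 + n 1 * t1 + n 2 * t2)
    - ((n 0 * T 0 0 + n 1 * T 1 0 + n 2 * T 2 0) * g0 + (n 0 * T 0 1 + n 1 * T 1 1 + n 2 * T 2 1) * g1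
      + (n 0 * T 0 2 + n 1 * T 1 2 + n 2 * T 2 2) * g2)
    - ((n 0 * T 0 0 + n 1 * T 0 1 + n 2 * T 0 2) * g0 + (n 0 * T 1 0 + n 1 * T 1 1 + n 2 * T 1 2) * g1
      + (n 0 * T 2 0 + n 1 * T 2 1 + n 2 * T 2 2) * g2))

variable {J : Fin 3 → Fin 3 → R} (hJ : ∀ c, ∑ a, n a * J a c = 0)
include hJ

theorem fr : Fr n J := ⟨h.nn, hJ⟩

/-- the normal -/
theorem N_eq (c : Fin 3) : sig n u v * Nv n J c = cr (cb u J) (cb v J) c := by
  rw [cr_cb]
  simp only [(h.fr hJ).cof_eq, sig, dot, Finset.sum_mul]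
  exact Finset.sum_congr rfl fun e _ => by ring

theorem dot_N (w : Fin 3 → R) :
    sig n u v * dot w (Nv n J) = dot w (cr (cb u J) (cb v J)) := by
  simp only [dot, ← h.N_eq hJ, Finset.mul_sum]
  exact Finset.sum_congr rfl fun e _ => by ring

/-- the area density -/
theorem G_eq : sig n u v ^ 2 * G2 n J = dot (cr (cb u J) (cb v J)) (cr (cb u J) (cb v J)) := by
  simp only [G2, dot, ← h.N_eq hJ, Finset.mul_sum]
  exact Finset.sum_congr rfl fun e _ => by ring

theorem J_cr (a : Fin 3) : dot (J a) (cr (cb u J) (cb v J)) = 0 := by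
  rw [← h.dot_N hJ, dot_comm, (h.fr hJ).N_J, mul_zero]

/-- the pairing of the dual frame with a gradient `d` and a vector `V` -/
theorem W_eq {d : Fin 3 → R} (hd : ∑ a, n a * d a = 0) (V : Fin 3 → R) :
    sig n u v ^ 2 * ∑ a, d a * dot (Wv J a) V =
      dot (cb v J) (cb v J) * (dot u d * dot (cb u J) V) -
        dot (cb u J) (cb v J) * (dot u d * dot (cb v J) V + dot v d * dot (cb u J) V) +
          dot (cb u J) (cb u J) * (dot v d * dot (cb v J) V) := by
  have e := h.mixed (g := gm J) (T := fun a b => d a * dot (J b) V) (gm_symm J) (h.fr hJ).n_gm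
    fun b => by simp only [← mul_assoc, ← Finset.sum_mul, hd, zero_mul]
  have b : ∀ x y : Fin 3 → R, bl (fun a b => d a * dot (J b) V) x y = dot x d * dot (cb y J) V :=
    fun x y => by simp only [bl, dot, cb, Fin.sum_univ_three]; ring
  simp only [b, ← dot_cb] at e
  rw [← e]
  simp only [dot_W, adj, Finset.mul_sum]
  exact Finset.sum_congr rfl fun a _ => Finset.sum_congr rfl fun b _ => by ring

variable {K : Fin 3 → Fin 3 → Fin 3 → R} (hK : ∀ b c, ∑ a, n a * K a b c = 0)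
  {X11 X12 X21 X22 w11 w12 w21 w22 : Fin 3 → R}
  (h11 : ∀ c, X11 c = cb2 K u u c + cb w11 J c) (h12 : ∀ c, X12 c = cb2 K u v c + cb w12 J c)
  (h21 : ∀ c, X21 c = cb2 K v u c + cb w21 J c) (h22 : ∀ c, X22 c = cb2 K v v c + cb w22 J c)
include hK h11 h12 h21 h22

/-- the mean curvature -/
theorem H_eq : sig n u v ^ 3 * HP n J K = Hc (cb u J) (cb v J) X11 X12 X21 X22 := by
  have e := h.mixed (g := gm J) (T := fun a b => dot (K a b) (cr (cb u J) (cb v J))) (gm_symm J)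
    (h.fr hJ).n_gm fun b => by
      simp only [dot, Finset.mul_sum, ← mul_assoc]
      rw [Finset.sum_comm]
      simp only [← Finset.sum_mul, hK, zero_mul, Finset.sum_const_zero]
  have k : ∀ {Y w x y : Fin 3 → R}, (∀ c, Y c = cb2 K x y c + cb w J c) →
      dot Y (cr (cb u J) (cb v J)) = bl (fun a b => dot (K a b) (cr (cb u J) (cb v J))) x y := by
    intro Y w x y hY
    have : dot Y (cr (cb u J) (cb v J)) = dot (cb2 K x y) (cr (cb u J) (cb v J)) +
        dot (cb w J) (cr (cb u J) (cb v J)) := by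
      simp only [dot, hY, add_mul, Finset.sum_add_distrib]
    rw [this, dot_cb2, dot_cb_left]
    simp only [h.J_cr hJ, mul_zero, Finset.sum_const_zero, add_zero]
  rw [Hc, k h11, k h12, k h21, k h22, dot_cb, dot_cb, dot_cb, ← e]
  simp only [HP, adj, ← h.dot_N hJ, Finset.mul_sum, mul_neg, neg_inj]
  exact Finset.sum_congr rfl fun a _ => Finset.sum_congr rfl fun b _ => by ring

/-- the Euler–Lagrange expression -/
theorem EL_eq (X : Fin 3 → R) :
    sig n u v ^ 3 * EL n X J K = ELc X (cb u J) (cb v J) X11 X12 X21 X22 := by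
  rw [ELc, ← h.H_eq hJ hK h11 h12 h21 h22, ← h.G_eq hJ, ← h.dot_N hJ, EL]
  ring

end Tp

end Crest.Agent.N250.Cj
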