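import Crest.Agent.N250.Cj.Pol
import Crest.Agent.N250.Po.Area
import Crest.Agent.N250.Act.Box

/-!
# Row 250 (helper82): area formula for an abstract immersed surface along a parametrisation
-/

set_option autoImplicit false
open MeasureTheory Set Filter Topology Function
open scoped ContDiff

noncomputable section

namespace Crest.Agent.N250.Cj

open Crest.Agent.N222 Po

variable {X : Type} [TopologicalSpace X] [T2Space X] [SecondCountableTopology X] [MeasurableSpace X]
  [BorelSpace X] {M : Imm 2 (Fin 3) X} {ψ : ℝ × ℝ → X} {s : Set (ℝ × ℝ)}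

/-- an injective `C¹` parametrisation on the measurable set `s` -/
structure Inj (M : Imm 2 (Fin 3) X) (ψ : ℝ × ℝ → X) (s : Set (ℝ × ℝ)) : Prop where
  meas : MeasurableSet s
  cont : ∀ q ∈ s, ContinuousAt ψ q
  sm : ∀ q ∈ s, ContDiffAt ℝ 1 (M.x ∘ ψ) q
  inj : InjOn ψ s

namespace Inj

variable (h : Inj M ψ s)
include h

omit [T2Space X] [SecondCountableTopology X] [MeasurableSpace X] [BorelSpace X] in
theorem mono {t : Set (ℝ × ℝ)} (ht : MeasurableSet t) (hs : t ⊆ s) : Inj M ψ t :=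
  ⟨ht, fun q hq => h.cont q (hs hq), fun q hq => h.sm q (hs hq), h.inj.mono hs⟩

omit [T2Space X] [SecondCountableTopology X] [MeasurableSpace X] [BorelSpace X] in
theorem contOn : ContinuousOn ψ s := fun q hq => (h.cont q hq).continuousWithinAt

omit [SecondCountableTopology X] in
theorem emb : MeasurableEmbedding (s.domRestrict ψ) :=
  h.contOn.measurableEmbedding h.meas h.inj

omit [SecondCountableTopology X] in
theorem meas_image : MeasurableSet (ψ '' s) := h.meas.image_of_continuousOn_injOn h.contOn h.inj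

omit [SecondCountableTopology X] in
theorem meas_pre {u : Set X} (hu : MeasurableSet u) : MeasurableSet (s ∩ ψ ⁻¹' u) := by
  have h1 : MeasurableSet (Subtype.val '' (s.domRestrict ψ ⁻¹' u)) :=
    (MeasurableEmbedding.subtype_coe h.meas).measurableSet_image.2 (h.emb.measurable hu)
  convert h1 using 1
  ext q
  exact ⟨fun hq => ⟨⟨q, hq.1⟩, hq.2, rfl⟩, by rintro ⟨z, hz, rfl⟩; exact ⟨z.2, hz⟩⟩

/-- the area of the image, inside one chart -/
theorem mu_loc (p : X) (hp : ∀ q ∈ s, ψ q ∈ (M.ch p).source) :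
    M.mu (ψ '' s) = ∫⁻ q in s, ENNReal.ofReal √(det (M.x ∘ ψ) q) := by
  set e := M.ch p with he
  have hd : ∀ q ∈ s, DifferentiableAt ℝ (e ∘ ψ) q := fun q hq =>
    (chart_map (n := 1) (M.isChart p) (h.cont q hq) (hp q hq) (h.sm q hq)).differentiableAt
      one_ne_zero
  have h1 : ∀ z ∈ pj ⁻¹' s, HasFDerivWithinAt ((e ∘ ψ) ∘ pj)
      ((fderiv ℝ (e ∘ ψ) (pj z)).comp pj) (pj ⁻¹' s) z :=
    fun z hz => ((hd _ hz).hasFDerivAt.comp z pj.hasFDerivAt).hasFDerivWithinAt
  have h2 : InjOn ((e ∘ ψ) ∘ pj) (pj ⁻¹' s) := fun a ha b hb hab =>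
    pj_emb.injective (h.inj ha hb (e.injOn (hp _ ha) (hp _ hb) hab))
  have h3 : e '' (ψ '' s) = ((e ∘ ψ) ∘ pj) '' (pj ⁻¹' s) := by
    rw [image_comp, image_preimage_eq _ pj_surj, image_comp]
  rw [Imm.mu_chart (M.isChart p) (by rintro _ ⟨q, hq, rfl⟩; exact hp q hq) h.meas_image, h3,
    lintegral_image_eq_lintegral_abs_det_fderiv_mul volume (pj_emb.measurable h.meas) h1 h2,
    ← pj_mp.setLIntegral_comp_preimage_emb pj_emb]
  refine setLIntegral_congr_fun (pj_emb.measurable h.meas) fun z hz => ?_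
  have h4 : M.x ∘ ψ =ᶠ[𝓝 (pj z)] (M.x ∘ e.symm) ∘ (e ∘ ψ) := by
    filter_upwards [(h.cont _ hz).eventually (e.open_source.mem_nhds (hp _ hz))] with y hy
    simp only [comp_apply, e.left_inv hy]
  have h5 : DifferentiableAt ℝ (M.x ∘ e.symm) ((e ∘ ψ) (pj z)) :=
    ((M.isChart p).sm.contDiffAt (e.open_target.mem_nhds (e.map_source (hp _ hz)))).differentiableAt
      (by simp)
  simp only
  rw [← ENNReal.ofReal_mul (abs_nonneg _), mul_comm, ← jac_pj, h4.fderiv_eq,
    fderiv_comp _ h5 (hd _ hz), ContinuousLinearMap.comp_assoc]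
  exact congrArg _ ((jac_comp _).symm.trans (jac_eq_normDet _))

/-- the area measure of the image -/
theorem mu_image : M.mu.restrict (ψ '' s) = Measure.map (s.domRestrict ψ)
    (Measure.comap (↑) (volume.withDensity fun q => ENNReal.ofReal √(det (M.x ∘ ψ) q))) := by
  refine Ms0.ext_cover (U := fun p => (M.ch p).source)
    (fun p => (M.ch p).open_source.mem_nhds (M.mem p)) fun p => ?_
  ext u hu
  have hu' := hu.inter (M.ch p).open_source.measurableSet
  have h1 := h.meas_pre hu'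
  have h2 : u ∩ (M.ch p).source ∩ ψ '' s = ψ '' (s ∩ ψ ⁻¹' (u ∩ (M.ch p).source)) := by
    rw [image_inter_preimage, inter_comm]
  have h3 : Subtype.val '' (s.domRestrict ψ ⁻¹' (u ∩ (M.ch p).source)) =
      s ∩ ψ ⁻¹' (u ∩ (M.ch p).source) := by
    ext q
    exact ⟨by rintro ⟨z, hz, rfl⟩; exact ⟨z.2, hz⟩, fun hq => ⟨⟨q, hq.1⟩, hq.2, rfl⟩⟩
  rw [Measure.restrict_apply hu, Measure.restrict_apply hu, Measure.restrict_apply hu',
    h.emb.map_apply, (MeasurableEmbedding.subtype_coe h.meas).comap_apply, h3,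
    withDensity_apply _ h1, h2, (h.mono h1 inter_subset_left).mu_loc p fun q hq => hq.2.2]

theorem lint (g : X → ENNReal) : ∫⁻ y in ψ '' s, g y ∂M.mu =
    ∫⁻ q in s, ENNReal.ofReal √(det (M.x ∘ ψ) q) * g (ψ q) := by
  rw [h.mu_image, h.emb.lintegral_map]
  simp only [Set.domRestrict_apply]
  rw [← (MeasurableEmbedding.subtype_coe h.meas).lintegral_map (f := fun z => g (ψ z)),
    map_comap_subtype_coe h.meas, setLIntegral_withDensity_eq_setLIntegral_mul_non_measurable₀ _
      (f := fun q => ENNReal.ofReal √(det (M.x ∘ ψ) q)) (measurable_coe_nnreal_ennreal.comp_aemeasurable aem_det) _ h.meas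
      (Eventually.of_forall fun _ => ENNReal.ofReal_lt_top)]
  rfl

variable {F : Type} [NormedAddCommGroup F] [NormedSpace ℝ F]

theorem int (g : X → F) : ∫ y in ψ '' s, g y ∂M.mu = ∫ q in s, √(det (M.x ∘ ψ) q) • g (ψ q) := by
  rw [h.mu_image, h.emb.integral_map]
  simp only [Set.domRestrict_apply, ENNReal.ofReal]
  rw [← (MeasurableEmbedding.subtype_coe h.meas).integral_map (g := fun z => g (ψ z)),
    map_comap_subtype_coe h.meas, setIntegral_withDensity_eq_setIntegral_smul₀ aem_det _ h.meas]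
  refine setIntegral_congr_fun h.meas fun z _ => ?_
  simp only [NNReal.smul_def, Real.coe_toNNReal _ (Real.sqrt_nonneg _)]

theorem intg (g : X → F) : IntegrableOn g (ψ '' s) M.mu ↔
    IntegrableOn (fun q => √(det (M.x ∘ ψ) q) • g (ψ q)) s := by
  rw [IntegrableOn, h.mu_image, h.emb.integrable_map_iff]
  simp only [Set.domRestrict_eq, ← Function.comp_assoc, ENNReal.ofReal]
  rw [← (MeasurableEmbedding.subtype_coe h.meas).integrable_map_iff, map_comap_subtype_coe h.meas,
    restrict_withDensity h.meas, integrable_withDensity_iff_integrable_coe_smul₀ aem_det]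
  refine integrableOn_congr_fun (fun z _ => ?_) h.meas
  simp only [Real.coe_toNNReal _ (Real.sqrt_nonneg _), Function.comp_apply]

/-- functions that vanish off the image -/
theorem int_supp {g : X → F} (hg : ∀ y, y ∉ ψ '' s → g y = 0) :
    ∫ y, g y ∂M.mu = ∫ q in s, √(det (M.x ∘ ψ) q) • g (ψ q) := by
  rw [← h.int, setIntegral_eq_integral_of_forall_compl_eq_zero hg]

end Inj

/-- the closed rectangle and the half open one -/
theorem int_Rc {F : Type} [NormedAddCommGroup F] [NormedSpace ℝ F] (α β : ℝ) (f : ℝ × ℝ → F) :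
    ∫ q in Icc α β ×ˢ Ico 0 (2 * Real.pi), f q = ∫ q in Act.Rc α β, f q := by
  refine setIntegral_congr_set ?_
  rw [Measure.volume_eq_prod]
  exact Measure.set_prod_ae_eq EventuallyEq.rfl Ico_ae_eq_Icc

/-- **integrals over a tube as double integrals** -/
theorem Inj.int_II {α β : ℝ} (hab : α ≤ β) (h : Inj M ψ (Icc α β ×ˢ Ico 0 (2 * Real.pi)))
    {g : X → ℂ} (hg : ∀ y, y ∉ ψ '' (Icc α β ×ˢ Ico 0 (2 * Real.pi)) → g y = 0) {f : ℝ × ℝ → ℂ}
    (hf : ContinuousOn f (Act.Rc α β))
    (he : ∀ q ∈ Act.Rc α β, (√(det (M.x ∘ ψ) q) : ℝ) * g (ψ q) = f q) :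
    ∫ y, g y ∂M.mu = Act.II α β f := by
  rw [h.int_supp hg, int_Rc, Act.II_eq hab hf]
  exact setIntegral_congr_fun (Act.isCompact_Rc α β).measurableSet fun q hq => he q hq

end Crest.Agent.N250.Cj

end
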