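import Crest.Agent.N250.Cj.Alg
import Crest.Agent.N250.Gc.Par
import Crest.Agent.N250.Wt.Defs
import Crest.Agent.N250.Po.Pol

/-!
# Row 250 (helper82): the complex delta-calculus of `WS.Geo` along a parametrisation
-/

set_option autoImplicit false
open Set Filter Topology
open scoped ContDiff

noncomputable section

namespace Crest.Agent.N250.Cj

open Crest.Agent.N222 Gc Po WS

section Imm

variable {X Z F : Type} [TopologicalSpace X] [NormedAddCommGroup Z] [NormedSpace ℝ Z]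
  [NormedAddCommGroup F] [NormedSpace ℝ F] {d : ℕ} {ι : Type} [Fintype ι] {M : Imm d ι X}
  {ψ : Z → X} {z : Z} {n : ℕ∞} {f : X → F}

theorem chart_map {x : X → N222.E ι} {e : OpenPartialHomeomorph X (N222.E (Fin d))}
    (he : IsChart x e) (hj : ContinuousAt ψ z) (hjz : ψ z ∈ e.source)
    (hx : ContDiffAt ℝ n (x ∘ ψ) z) : ContDiffAt ℝ n (e ∘ ψ) z := by
  set w := e (ψ z) with hw
  have hwt : w ∈ e.target := e.map_source hjz
  have hφ : ContDiffAt ℝ ∞ (x ∘ e.symm) w := he.sm.contDiffAt (e.open_target.mem_nhds hwt)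
  set J := fderiv ℝ (x ∘ e.symm) w with hJ
  obtain ⟨u, hu⟩ := isUnit_gram (he.inj w hwt)
  have hψ : ContDiffAt ℝ ∞ (ContinuousLinearMap.adjoint J ∘ x ∘ e.symm) w :=
    (ContinuousLinearMap.adjoint J).contDiff.contDiffAt.comp w hφ
  have hψ' : HasFDerivAt (ContinuousLinearMap.adjoint J ∘ x ∘ e.symm)
      (ContinuousLinearEquiv.ofUnit u : N222.E (Fin d) →L[ℝ] N222.E (Fin d)) w := by
    have h1 := (ContinuousLinearMap.adjoint J).hasFDerivAt.comp w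
      (hφ.differentiableAt (by simp)).hasFDerivAt
    have h2 : (ContinuousLinearEquiv.ofUnit u : N222.E (Fin d) →L[ℝ] N222.E (Fin d)) =
        ContinuousLinearMap.adjoint J ∘L J := by
      rw [← hu]; rfl
    rw [h2]; exact h1
  have hn : (∞ : WithTop ℕ∞) ≠ 0 := by simp
  have hinv := hψ.to_localInverse hψ' hn
  have hleft := (hψ.hasStrictFDerivAt' hψ' hn).eventually_left_inverse
  have hc : ContinuousAt (e ∘ ψ) z := ContinuousAt.comp (f := ψ) (e.continuousAt hjz) hj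
  have hs : ∀ᶠ y in 𝓝 z, ψ y ∈ e.source := hj.eventually (e.open_source.mem_nhds hjz)
  have h3 : ContDiffAt ℝ n (ContinuousLinearMap.adjoint J ∘ x ∘ ψ) z :=
    (ContinuousLinearMap.adjoint J).contDiff.contDiffAt.comp z hx
  have h4 : (ContinuousLinearMap.adjoint J ∘ x ∘ e.symm) w =
      (ContinuousLinearMap.adjoint J ∘ x ∘ ψ) z := by
    simp only [Function.comp_apply, hw, e.left_inv hjz]
  rw [h4] at hinv
  refine ((hinv.of_le (by exact_mod_cast le_top)).comp z h3).congr_of_eventuallyEq ?_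
  filter_upwards [hs, hc.eventually hleft] with y hy hy'
  simp only [Function.comp_apply, e.left_inv hy] at hy' ⊢
  exact hy'.symm

omit [NormedSpace ℝ Z] [NormedAddCommGroup F] [NormedSpace ℝ F] in
theorem ev_chart (g : X → F) (hj : ContinuousAt ψ z) :
    (fun y => g (ψ y)) =ᶠ[𝓝 z] (g ∘ (M.ch (ψ z)).symm) ∘ (M.ch (ψ z) ∘ ψ) := by
  filter_upwards [hj.eventually ((M.ch (ψ z)).open_source.mem_nhds (M.mem _))] with y hy
  simp only [Function.comp_apply, (M.ch (ψ z)).left_inv hy]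

/-- smooth functions along a map into the surface -/
theorem cd_map (hf : M.Sm f) (hj : ContinuousAt ψ z) (hx : ContDiffAt ℝ n (M.x ∘ ψ) z) :
    ContDiffAt ℝ n (fun y => f (ψ y)) z := by
  have h1 := chart_map (M.isChart _) hj (M.mem _) hx
  have h2 : ContDiffAt ℝ ∞ (f ∘ (M.ch (ψ z)).symm) ((M.ch (ψ z) ∘ ψ) z) :=
    (hf _).contDiffAt ((M.ch _).open_target.mem_nhds ((M.ch _).map_source (M.mem _)))
  exact ((h2.of_le (by exact_mod_cast le_top)).comp z h1).congr_of_eventuallyEq (ev_chart f hj)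

/-- chain rule along a map into the surface -/
theorem hasF_map (hf : M.DiffAt f (ψ z)) (hj : ContinuousAt ψ z)
    (hx : ContDiffAt ℝ 1 (M.x ∘ ψ) z) :
    HasFDerivAt (fun y => f (ψ y)) (M.td f (ψ z) ∘L fderiv ℝ (M.x ∘ ψ) z) z := by
  have h1 := ((chart_map (n := 1) (M.isChart _) hj (M.mem _) hx).differentiableAt
    one_ne_zero).hasFDerivAt
  have k : ∀ {G : Type} [NormedAddCommGroup G] [NormedSpace ℝ G] {g : X → G}, M.DiffAt g (ψ z) →
      HasFDerivAt (fun y => g (ψ y)) (fderiv ℝ (g ∘ (M.ch (ψ z)).symm) (M.ch (ψ z) (ψ z)) ∘L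
        fderiv ℝ (M.ch (ψ z) ∘ ψ) z) z := fun hg =>
    (HasFDerivAt.comp z (f := M.ch (ψ z) ∘ ψ) hg.hasFDerivAt h1).congr_of_eventuallyEq
      (ev_chart _ hj)
  have h2 : fderiv ℝ (M.x ∘ ψ) z = _ := (k (M.sm_x.diffAt _)).fderiv
  rw [h2, ← ContinuousLinearMap.comp_assoc, ← Imm.fderiv_chart f (M.isChart _) (M.mem _)]
  exact k hf

end Imm

variable {X : Type} [TopologicalSpace X] [MeasurableSpace X] {G : Geo X}

/-- evaluation of complex smooth functions -/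
def ev (G : Geo X) (p : X) : G.SmC →+* ℂ :=
  (Pi.evalRingHom (fun _ : X => ℂ) p).comp G.SmC.val.toRingHom

theorem ev_apply (p : X) (f : G.SmC) : ev G p f = f.1 p := rfl

theorem D_apply (f : G.SmC) (a : Fin 3) (p : X) :
    (G.SC.D a f).1 p = G.M.td f.1 p (N222.ee a) := by
  have h1 := Imm.td_comp (Imm.Sm.diffAt f.2 p) (g := Complex.reCLM)
    Complex.reCLM.differentiableAt
  have h2 := Imm.td_comp (Imm.Sm.diffAt f.2 p) (g := Complex.imCLM)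
    Complex.imCLM.differentiableAt
  change ((G.M.td (fun q => Complex.reCLM (f.1 q)) p (N222.ee a) : ℝ) : ℂ) +
    Complex.I • ((G.M.td (fun q => Complex.imCLM (f.1 q)) p (N222.ee a) : ℝ) : ℂ) = _
  rw [h1, h2, ContinuousLinearMap.fderiv, ContinuousLinearMap.fderiv]
  simp only [ContinuousLinearMap.comp_apply, Complex.reCLM_apply, Complex.imCLM_apply, smul_eq_mul]
  rw [mul_comm]
  exact Complex.re_add_im _

theorem td_eq (f : G.SmC) (p : X) (w : N222.E (Fin 3)) :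
    G.M.td f.1 p w = ∑ a, (w a : ℂ) * (G.SC.D a f).1 p := by
  conv_lhs => rw [N222.eq_sum_ee w]
  simp only [map_sum, map_smul, D_apply, Complex.real_smul]

/-- the normal as a vector -/
def nv (G : Geo X) (p : X) : N222.E (Fin 3) := WithLp.toLp 2 fun a => (G.n a).1 p

theorem nn (p : X) : ∑ a, (G.n a).1 p * (G.n a).1 p = 1 := by
  have := congrArg (fun f : G.R => f.1 p) G.hyp.nn
  simpa [mov] using this

theorem PL_nv (p : X) : G.M.PL p (nv G p) = 0 := by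
  ext a
  have h : ∀ b, G.M.pre.P a b p = (if a = b then 1 else 0) - (G.n a).1 p * (G.n b).1 p := fun b => by
    have := congrArg (fun f : G.R => f.1 p) (G.hyp.Pn a b)
    refine Eq.trans rfl (this.trans ?_)
    split_ifs <;> rfl
  rw [Imm.PL_apply]
  simp only [h, nv, sub_mul, Finset.sum_sub_distrib, ite_mul, one_mul, zero_mul,
    Finset.sum_ite_eq, Finset.mem_univ, if_true, mul_assoc, ← Finset.mul_sum, nn, mul_one, sub_self,
    PiLp.zero_apply]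

/-- complex normal, first and second derivatives at a point -/
def nC (G : Geo X) (p : X) (a : Fin 3) : ℂ := ((G.n a).1 p : ℂ)

theorem n_D (f : G.SmC) (p : X) : ∑ a, nC G p a * (G.SC.D a f).1 p = 0 := by
  have := td_eq f p (nv G p)
  rw [← Imm.td_PL, PL_nv, map_zero] at this
  exact this.symm

/-- complexification of a vector -/
def cx (w : N222.E (Fin 3)) (a : Fin 3) : ℂ := (w a : ℂ)

theorem dot_cx (u w : N222.E (Fin 3)) : dot (cx u) (cx w) = (inner ℝ u w : ℝ) := by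
  rw [inner_eq_sum]
  simp [dot, cx]

/-- values of a complex map -/
def val (Y : Fin 3 → G.SmC) (p : X) (c : Fin 3) : ℂ := (Y c).1 p

/-- first derivatives -/
def JC (Y : Fin 3 → G.SmC) (p : X) (a c : Fin 3) : ℂ := (G.SC.D a (Y c)).1 p

/-- second derivatives -/
def KC (Y : Fin 3 → G.SmC) (p : X) (a b c : Fin 3) : ℂ := (G.SC.D a (G.SC.D b (Y c))).1 p

section Val

variable (Y : Fin 3 → G.SmC) (p : X)

theorem NX_val (c : Fin 3) : (G.SC.NX Y c).1 p = Nv (nC G p) (JC Y p) c :=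
  map_Nv (ev G p) _ _ c

theorem GX_val : (G.SC.GX Y).1 p = G2 (nC G p) (JC Y p) := map_G2 (ev G p) _ _

theorem WX_val (a c : Fin 3) : (G.SC.WX Y a c).1 p = Wv (JC Y p) a c := map_Wv (ev G p) _ a c

theorem HX_val : (G.SC.HX Y).1 p = HP (nC G p) (JC Y p) (KC Y p) := map_HP (ev G p) _ _ _

theorem ELX_val : (G.SC.ELX Y).1 p = Gc.EL (nC G p) (val Y p) (JC Y p) (KC Y p) :=
  map_EL (ev G p) _ _ _ _

theorem dot_val (V : Fin 3 → G.SmC) : (dot Y V).1 p = dot (val Y p) (val V p) :=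
  map_dot (ev G p) _ _

end Val

/-- `ψ` parametrises the surface near `q` -/
structure Pm (G : Geo X) (ψ : ℝ × ℝ → X) (q : ℝ × ℝ) : Prop where
  cont : ∀ᶠ y in 𝓝 q, ContinuousAt ψ y
  sm : ContDiffAt ℝ 2 (G.M.x ∘ ψ) q

/-- the signed area density of the parametrisation -/
def sg (G : Geo X) (ψ : ℝ × ℝ → X) (q : ℝ × ℝ) : ℂ :=
  sig (nC G (ψ q)) (cx (d1 (G.M.x ∘ ψ) q)) (cx (d2 (G.M.x ∘ ψ) q))

/-- a complex map in the parametrisation -/
def pb (Y : Fin 3 → G.SmC) (ψ : ℝ × ℝ → X) (y : ℝ × ℝ) : Fin 3 → ℂ := val Y (ψ y)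

namespace Pm

variable {ψ : ℝ × ℝ → X} {q : ℝ × ℝ} (h : Pm G ψ q)
include h

theorem ev : ∀ᶠ y in 𝓝 q, Pm G ψ y :=
  (h.cont.eventually_nhds.and (h.sm.eventually (by simp))).mono fun _ hy => ⟨hy.1, hy.2⟩

theorem cd {F : Type} [NormedAddCommGroup F] [NormedSpace ℝ F] {f : X → F} (hf : G.M.Sm f) :
    ContDiffAt ℝ 2 (fun y => f (ψ y)) q :=
  cd_map (n := 2) hf h.cont.self_of_nhds h.sm

theorem fd' {F : Type} [NormedAddCommGroup F] [NormedSpace ℝ F] {f : X → F} (hf : G.M.Sm f)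
    (w : ℝ × ℝ) : fderiv ℝ (fun y => f (ψ y)) q w = G.M.td f (ψ q) (fderiv ℝ (G.M.x ∘ ψ) q w) := by
  rw [(hasF_map (hf.diffAt _) h.cont.self_of_nhds (h.sm.of_le one_le_two)).fderiv]; rfl

/-- first derivatives -/
theorem fd (f : G.SmC) (w : ℝ × ℝ) : fderiv ℝ (fun y => f.1 (ψ y)) q w =
    ∑ a, cx (fderiv ℝ (G.M.x ∘ ψ) q w) a * (G.SC.D a f).1 (ψ q) := by
  rw [h.fd' f.2, td_eq]; rfl

/-- second derivatives -/
theorem fd2 (f : G.SmC) (w' w : ℝ × ℝ) :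
    fderiv ℝ (fun z => fderiv ℝ (fun y => f.1 (ψ y)) z w) q w' =
      ∑ a, ∑ b, cx (fderiv ℝ (G.M.x ∘ ψ) q w') a * cx (fderiv ℝ (G.M.x ∘ ψ) q w) b *
        (G.SC.D a (G.SC.D b f)).1 (ψ q) +
      ∑ b, cx (fderiv ℝ (fun z => fderiv ℝ (G.M.x ∘ ψ) z w) q w') b * (G.SC.D b f).1 (ψ q) := by
  have e : (fun z => fderiv ℝ (fun y => f.1 (ψ y)) z w) =ᶠ[𝓝 q] fun z =>
      ∑ b, cx (fderiv ℝ (G.M.x ∘ ψ) z w) b * (G.SC.D b f).1 (ψ z) :=
    h.ev.mono fun z hz => hz.fd f w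
  have h1 : ∀ b, HasFDerivAt (fun z => cx (fderiv ℝ (G.M.x ∘ ψ) z w) b) _ q := fun b =>
    (Complex.ofRealCLM.comp (EuclideanSpace.proj b)).hasFDerivAt.comp q (diff_fd h.sm w).hasFDerivAt
  have h2 : ∀ b, HasFDerivAt (fun z => (G.SC.D b f).1 (ψ z)) _ q := fun b =>
    ((h.cd (G.SC.D b f).2).differentiableAt (by simp)).hasFDerivAt
  rw [e.fderiv_eq, (HasFDerivAt.fun_sum fun b _ => (h1 b).fun_mul (h2 b)).fderiv, Finset.sum_comm,
    ← Finset.sum_add_distrib, sum_apply]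
  refine Finset.sum_congr rfl fun b _ => ?_
  simp only [add_apply, smul_apply, h.fd, smul_eq_mul,
    Finset.mul_sum]
  congr 1
  · exact Finset.sum_congr rfl fun a _ => by ring
  · exact mul_comm _ _

theorem n_fd (w : ℝ × ℝ) : dot (nC G (ψ q)) (cx (fderiv ℝ (G.M.x ∘ ψ) q w)) = 0 := by
  have e : fderiv ℝ (G.M.x ∘ ψ) q w = G.M.PL (ψ q) (fderiv ℝ (G.M.x ∘ ψ) q w) := h.fd' G.M.sm_x w
  change dot (cx (nv G (ψ q))) _ = 0
  rw [dot_cx, e, ← Imm.PL_symm, PL_nv, inner_zero_left, Complex.ofReal_zero]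

theorem tp : Tp (nC G (ψ q)) (cx (d1 (G.M.x ∘ ψ) q)) (cx (d2 (G.M.x ∘ ψ) q)) :=
  ⟨by simp only [nC]; exact_mod_cast nn (G := G) (ψ q), h.n_fd _, h.n_fd _⟩

theorem sg_sq : sg G ψ q ^ 2 = (det (G.M.x ∘ ψ) q : ℝ) := by
  rw [sg, h.tp.sig_sq, dot_cx, dot_cx, dot_cx, det]
  push_cast
  rfl

variable (Y : Fin 3 → G.SmC)

theorem cd_pb : ContDiffAt ℝ 2 (pb Y ψ) q := contDiffAt_pi.2 fun c => h.cd (Y c).2

theorem fd_pb (w : ℝ × ℝ) :
    fderiv ℝ (pb Y ψ) q w = cb (cx (fderiv ℝ (G.M.x ∘ ψ) q w)) (JC Y (ψ q)) := by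
  funext c
  have e2 := fderiv_apply ((h.cd_pb Y).differentiableAt (by simp)) c
  exact (congrArg (fun T : ℝ × ℝ →L[ℝ] ℂ => T w) e2).symm.trans (h.fd (Y c) w)

theorem fd2_pb (w' w : ℝ × ℝ) (c : Fin 3) :
    fderiv ℝ (fun z => fderiv ℝ (pb Y ψ) z w) q w' c =
      cb2 (KC Y (ψ q)) (cx (fderiv ℝ (G.M.x ∘ ψ) q w')) (cx (fderiv ℝ (G.M.x ∘ ψ) q w)) c +
        cb (cx (fderiv ℝ (fun z => fderiv ℝ (G.M.x ∘ ψ) z w) q w')) (JC Y (ψ q)) c := by
  have e : (fun z => fderiv ℝ (pb Y ψ) z w c) =ᶠ[𝓝 q]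
      fun z => fderiv ℝ (fun y => (Y c).1 (ψ y)) z w :=
    h.ev.mono fun z hz => (congrFun (hz.fd_pb Y w) c).trans (hz.fd (Y c) w).symm
  have e2 := fderiv_apply (diff_fd (h.cd_pb Y) w) c
  have e3 := congrArg (fun T : ℝ × ℝ →L[ℝ] ℂ => T w') (e2.symm.trans e.fderiv_eq)
  exact e3.trans (h.fd2 (Y c) w' w)

/-- the normal -/
theorem N_eq (c : Fin 3) :
    sg G ψ q * (G.SC.NX Y c).1 (ψ q) = cr (d1 (pb Y ψ) q) (d2 (pb Y ψ) q) c := by
  rw [NX_val, d1, d2, h.fd_pb, h.fd_pb]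
  exact h.tp.N_eq (fun c => n_D (Y c) _) c

/-- the area density -/
theorem G_eq : sg G ψ q ^ 2 * (G.SC.GX Y).1 (ψ q) =
    dot (cr (d1 (pb Y ψ) q) (d2 (pb Y ψ) q)) (cr (d1 (pb Y ψ) q) (d2 (pb Y ψ) q)) := by
  rw [GX_val, d1, d2, h.fd_pb, h.fd_pb]
  exact h.tp.G_eq fun c => n_D (Y c) _

/-- the flux -/
theorem W_eq (f : G.SmC) (V : Fin 3 → ℂ) :
    sg G ψ q ^ 2 * ∑ a, (G.SC.D a f).1 (ψ q) * dot (val (G.SC.WX Y a) (ψ q)) V =
      dot (d2 (pb Y ψ) q) (d2 (pb Y ψ) q) *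
          (d1 (fun y => f.1 (ψ y)) q * dot (d1 (pb Y ψ) q) V) -
        dot (d1 (pb Y ψ) q) (d2 (pb Y ψ) q) * (d1 (fun y => f.1 (ψ y)) q * dot (d2 (pb Y ψ) q) V +
          d2 (fun y => f.1 (ψ y)) q * dot (d1 (pb Y ψ) q) V) +
        dot (d1 (pb Y ψ) q) (d1 (pb Y ψ) q) *
          (d2 (fun y => f.1 (ψ y)) q * dot (d2 (pb Y ψ) q) V) := by
  have e : ∀ a, val (G.SC.WX Y a) (ψ q) = Wv (JC Y (ψ q)) a := fun a => funext (WX_val Y _ a)
  simp only [e, d1, d2, h.fd_pb, h.fd]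
  exact h.tp.W_eq (fun c => n_D (Y c) _) (n_D f _) V

/-- the mean curvature -/
theorem H_eq : sg G ψ q ^ 3 * (G.SC.HX Y).1 (ψ q) = Hc (d1 (pb Y ψ) q) (d2 (pb Y ψ) q)
    (d1 (d1 (pb Y ψ)) q) (d1 (d2 (pb Y ψ)) q) (d2 (d1 (pb Y ψ)) q) (d2 (d2 (pb Y ψ)) q) := by
  rw [HX_val, show d1 (pb Y ψ) q = _ from h.fd_pb Y _, show d2 (pb Y ψ) q = _ from h.fd_pb Y _]
  exact h.tp.H_eq (fun c => n_D (Y c) _) (fun b c => n_D (G.SC.D b (Y c)) _)
    (h.fd2_pb Y _ _) (h.fd2_pb Y _ _) (h.fd2_pb Y _ _) (h.fd2_pb Y _ _)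

/-- the Euler–Lagrange expression -/
theorem EL_eq : sg G ψ q ^ 3 * (G.SC.ELX Y).1 (ψ q) = ELc (pb Y ψ q) (d1 (pb Y ψ) q)
    (d2 (pb Y ψ) q) (d1 (d1 (pb Y ψ)) q) (d1 (d2 (pb Y ψ)) q) (d2 (d1 (pb Y ψ)) q)
    (d2 (d2 (pb Y ψ)) q) := by
  rw [ELX_val, show d1 (pb Y ψ) q = _ from h.fd_pb Y _, show d2 (pb Y ψ) q = _ from h.fd_pb Y _]
  exact h.tp.EL_eq (fun c => n_D (Y c) _) (fun b c => n_D (G.SC.D b (Y c)) _)
    (h.fd2_pb Y _ _) (h.fd2_pb Y _ _) (h.fd2_pb Y _ _) (h.fd2_pb Y _ _) _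

end Pm

end Crest.Agent.N250.Cj

end
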